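import Mathlib

/-!
# P184: all definitions used in the proof of the l1-Bass conjecture
-/

namespace Vale.Agent.P184

open Finset

/-! ### Length functions, paths -/

/-- A (pseudo) length function on a group. -/
structure IsLen {G : Type*} [Group G] (ℓ : G → ℕ) : Prop where
  one : ℓ 1 = 0
  inv : ∀ x, ℓ x⁻¹ = ℓ x
  mul : ∀ x y, ℓ (x * y) ≤ ℓ x + ℓ y

/-- Time shift of a path. -/
def Tsh {G : Type*} (v : ℕ → G) : ℕ → G := fun t => v (t + 1)

/-- Quasi-periodic path with period `m` and holonomy `g`. -/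
def QP {G : Type*} [Group G] (m : ℕ) (g : G) (v : ℕ → G) : Prop := ∀ t, v (t + m) = g * v t

/-- Consecutive paths differ by the letter `H i` at the times congruent to `a i`. -/
def Steps {G : Type*} [Group G] {n : ℕ} (m : ℕ) (a : Fin n → ZMod m) (H : Fin n → G)
    (u : Fin (n + 1) → ℕ → G) : Prop :=
  ∀ (i : Fin n) (t : ℕ),
    u i.succ t = u i.castSucc t * (if (t : ZMod m) = a i then H i else 1)

/-- The matrix of a kernel on a tuple of paths. -/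
noncomputable def mat {G : Type*} (b : (ℕ → G) → (ℕ → G) → ℝ) {n : ℕ} (u : Fin n → ℕ → G)
    (p q : Fin n) : ℝ :=
  if p ≤ q then b (u p) (u q) else b (u p) (Tsh (u q)) - 1

/-- Mixed second differences of a matrix. -/
def mixed {n : ℕ} (B : Fin (n + 1) → Fin (n + 1) → ℝ) (i l : Fin n) : ℝ :=
  B i.succ l.succ - B i.castSucc l.succ - B i.succ l.castSucc + B i.castSucc l.castSucc

/-- Cyclic rotation of a tuple of paths: `(u 1, ..., u (n-1), Tsh (u 0))`. -/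
def rotT {G : Type*} {n : ℕ} (u : Fin n → ℕ → G) (i : Fin n) : ℕ → G :=
  if h : i.val + 1 < n then u ⟨i.val + 1, h⟩ else Tsh (u ⟨0, i.pos⟩)

/-! ### Configurations -/

/-- The letter `p` if it sits in the slot of time `t`, else `1`. -/
def st {M : Type*} [Monoid M] {N m : ℕ} (a : Fin N → ZMod m) (E : Fin N → M) (t : ℕ)
    (p : Fin N) : M :=
  if (t : ZMod m) = a p then E p else 1

/-- The product of all slots before time `t`. -/
def base {M : Type*} [Monoid M] {N m : ℕ} (a : Fin N → ZMod m) (E : Fin N → M) : ℕ → M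
  | 0 => 1
  | t + 1 => base a E t * (List.ofFn (st a E t)).prod

/-- The `p`-th vertex path: the letters `< p` are advanced by one slot. -/
def vert {M : Type*} [Monoid M] {N m : ℕ} (a : Fin N → ZMod m) (E : Fin N → M)
    (p : Fin (N + 1)) (t : ℕ) : M :=
  base a E t * Fin.partialProd (st a E t) p

/-- The sign of a slot assignment. -/
noncomputable def sgnA {N m : ℕ} (a : Fin N → ZMod m) : ℝ :=
  ∏ p, ∏ q, if p < q ∧ (a q).val < (a p).val then (-1 : ℝ) else 1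

/-- The weight of a configuration. -/
noncomputable def wt {G A : Type*} [Group G] [Ring A] (tr : A →+ ℝ) (e : G → A) (C : Set G)
    {N m : ℕ} (a : Fin N → ZMod m) (H : Fin N → G) : ℝ :=
  C.indicator (fun _ => tr (base a (fun p => e (H p)) m)) (base a H m)

/-- The standing hypotheses on the coefficient ring, the trace and the idempotent. -/
structure Idem {G A : Type*} [Group G] [NormedRing A] (tr : A →+ ℝ) (c : ℝ) (e : G → A)
    (C : Set G) : Prop where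
  c_nonneg : 0 ≤ c
  bound : ∀ x, |tr x| ≤ c * ‖x‖
  comm : ∀ x y, tr (x * y) = tr (y * x)
  summable : Summable fun g => ‖e g‖
  idem : ∀ g, HasSum (fun h => e h * e (h⁻¹ * g)) (e g)
  conj : ∀ x g, g ∈ C → x * g * x⁻¹ ∈ C

/-- The trace coefficient at the set `C`. -/
noncomputable def tauC {G A : Type*} [Ring A] (tr : A →+ ℝ) (e : G → A) (C : Set G) : ℝ :=
  ∑' g, C.indicator (fun g => tr (e g)) g

/-- The face sum: vertex `p` is omitted. -/
noncomputable def faceSum {G A : Type*} [Group G] [Ring A] {n m : ℕ} [NeZero m] (tr : A →+ ℝ)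
    (e : G → A) (C : Set G) (Θ : (Fin n → ℕ → G) → ℝ) (p : Fin (n + 1)) : ℝ :=
  ∑ a : Fin (n + 1) → ZMod m, sgnA a * ∑' H : Fin (n + 1) → G,
    wt tr e C a H * Θ (fun i => vert a H (p.succAbove i).castSucc)

/-! ### Antisymmetrised products -/

/-- Antisymmetrised product of `k` matrices on `2k+1` vertices. -/
noncomputable def psi {k : ℕ} (B : Fin k → Fin (k + k + 1) → Fin (k + k + 1) → ℝ) : ℝ :=
  ∑ π : Equiv.Perm (Fin (k + k + 1)), ((Equiv.Perm.sign π : ℤ) : ℝ) *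
    ∏ i, B i (π (Fin.castAdd k i).succ) (π (Fin.natAdd k i).succ)

/-- The primitive of `psi` on `2k` vertices. -/
noncomputable def eta {k : ℕ} (i₀ : Fin k) (B : Fin k → Fin (k + k) → Fin (k + k) → ℝ) : ℝ :=
  ∑ π : Equiv.Perm (Fin (k + k)), ((Equiv.Perm.sign π : ℤ) : ℝ) *
    ((∑ r, B i₀ r (π (Fin.natAdd k i₀))) *
      ∏ i ∈ univ.erase i₀, B i (π (Fin.castAdd k i)) (π (Fin.natAdd k i)))

/-- Mixed Pfaffian. -/
noncomputable def MP {k : ℕ} (D : Fin (k + k) → Fin (k + k) → ℝ) : ℝ :=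
  ∑ π : Equiv.Perm (Fin (k + k)), ((Equiv.Perm.sign π : ℤ) : ℝ) *
    ∏ i, D (π (Fin.castAdd k i)) (π (Fin.natAdd k i))

/-! ### Minor bounds -/

/-- All minors of `D` of size `p` are at most `x^(2p) Δ` times the weights. -/
def MinorBd {κ : Type*} (D : κ → κ → ℝ) (lam : κ → ℝ) (x Δ : ℝ) : Prop :=
  ∀ (p : ℕ) (f h : Fin p → κ),
    |(Matrix.of fun i j => D (f i) (h j)).det| ≤
      x ^ (2 * p) * Δ * ((∏ i, lam (f i)) * ∏ j, lam (h j))

/-- Weighted sum of squared minors with fixed columns. -/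
noncomputable def Cw {Ξ κ : Type*} [Fintype Ξ] (ω : Ξ → ℝ) (B : Ξ → κ → ℝ) {p : ℕ}
    (h : Fin p → κ) : ℝ :=
  ∑ g : Fin p → Ξ, (∏ i, ω (g i)) * (Matrix.of fun i j => B (g i) (h j)).det ^ 2

/-- Weighted sum of all squared minors of size `p`. -/
noncomputable def Ew {Ξ Ξ' : Type*} [Fintype Ξ] [Fintype Ξ'] (ω : Ξ → ℝ) (ω' : Ξ' → ℝ)
    (K : Ξ → Ξ' → ℝ) (p : ℕ) : ℝ :=
  ∑ g : Fin p → Ξ, ∑ g' : Fin p → Ξ',
    (∏ i, ω (g i)) * (∏ i, ω' (g' i)) * (Matrix.of fun i j => K (g i) (g' j)).det ^ 2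

/-- Data of a linearised chain (levels `j ≤ J`, times `a`, labels in `Y`, columns in `κ`). -/
structure Chain {X κ : Type*} (Y : Finset X) (lam : κ → ℝ) (J : ℕ) (h : ℕ → ℕ) (A : ℕ → ℝ)
    (Tmax : ℕ) (β0 : ℝ) (ω : ℕ → ℕ → X → ℝ) (B : ℕ → ℕ → X → κ → ℝ) : Prop where
  h_pos : ∀ j, 0 < h j
  lam_nonneg : ∀ i, 0 ≤ lam i
  beta_nonneg : 0 ≤ β0
  nonneg : ∀ j a x, 0 ≤ ω j a x
  mass : ∀ j ≤ J, ∀ a, ∑ x ∈ Y, ω j a x ≤ A j
  base : ∀ i, ∑ a ∈ range Tmax, ∑ x ∈ Y, ω 0 a x * B 0 a x i ^ 2 ≤ β0 * lam i ^ 2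
  step : ∀ j < J, ∃ Λ : ℕ → X → ℕ → X → ℝ, (∀ a x u z, |Λ a x u z| ≤ 1) ∧
    ∀ a, ∀ x ∈ Y, ∀ i, B (j + 1) a x i = (h j : ℝ)⁻¹ * ∑ u ∈ range (h j), ∑ z ∈ Y,
      ω j (a + u + 1) z * Λ a x u z * B j (a + u + 1) z i

/-- The gain constant of a chain. -/
noncomputable def Gam (h : ℕ → ℕ) (A : ℕ → ℝ) (Tmax : ℕ) (β0 s : ℝ) (j : ℕ) : ℝ :=
  β0 * ∏ i ∈ range j, (Tmax * A (i + 1) * A i / (h i * s))

/-- The estimates that one summand of the numerator has to satisfy.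
`np p q` is the value on the paths `u p, u q`, and `nm p q` the one on `u p, Tsh (u q)`. -/
structure LevelOK {n : ℕ} (np nm : Fin (n + 1) → Fin (n + 1) → ℝ) (lam : Fin n → ℝ)
    (x Δ η c1 c2 C : ℝ) : Prop where
  approx : ∃ D : Fin n → Fin n → ℝ, MinorBd D lam x Δ ∧
    (∀ i l, i < l → |mixed np i l - D i l| ≤ η) ∧ (∀ i l, l < i → |mixed nm i l - D i l| ≤ η)
  rcol : ∀ p (l : Fin n),
    |(nm p l.succ - np p l.succ) - (nm p l.castSucc - np p l.castSucc)| ≤ c1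
  rrow : ∀ (i : Fin n) q,
    |(nm i.succ q - np i.succ q) - (nm i.castSucc q - np i.castSucc q)| ≤ c1
  base : ∀ l : Fin n, |np 0 l.succ - np 0 l.castSucc| ≤ c2
  mix : ∀ i l, |mixed np i l| ≤ C

/-- Number of other letters inside the window of letter `i`. -/
def cnt {n m : ℕ} (w : ℕ) (a : Fin n → ZMod m) (i : Fin n) : ℕ :=
  (univ.filter fun l => l ≠ i ∧ (a l - a i).val ≤ w).card

/-- The random factor of level zero. -/
noncomputable def Del0 {n m : ℕ} (w : ℕ) (y : ℝ) (a : Fin n → ZMod m) : ℝ :=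
  ∏ i, Real.sqrt (1 + (cnt w a i : ℝ) / y)

/-! ### The soft selection map -/

noncomputable def phi (p : ℕ) (w : ℝ) : ℝ := (max (2 * w - 1) 0) ^ p

noncomputable def dphi (p : ℕ) (w : ℝ) : ℝ := 2 * p * (max (2 * w - 1) 0) ^ (p - 1)

noncomputable def Z0 (p : ℕ) : ℝ := (1 / 2) ^ p / 16

/-- Summation over a finite set of labels. -/
noncomputable def sumY {X : Type*} (Y : Finset X) (f : X → ℝ) : ℝ := ∑ y ∈ Y, f y

/-- Summation over all labels. -/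
noncomputable def sumF {X : Type*} (f : X → ℝ) : ℝ := ∑ᶠ y, f y

/-- The soft selection with respect to the summation functional `S`. -/
noncomputable def soft {X : Type*} (S : (X → ℝ) → ℝ) (p : ℕ) (W : X → ℝ) (x : X) : ℝ :=
  phi p (W x) / (S (fun y => phi p (W y)) + Z0 p)

noncomputable def nn {X : Type*} (Y : Finset X) (p : ℕ) (W : X → ℝ) (x : X) : ℝ :=
  dphi p (W x) / (∑ y ∈ Y, phi p (W y) + Z0 p)

/-- The derivative of the soft selection at `W` in the direction `δ`. -/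
noncomputable def dsoft {X : Type*} (Y : Finset X) (p : ℕ) (W δ : X → ℝ) (x : X) : ℝ :=
  nn Y p W x * δ x - soft (sumY Y) p W x * ∑ y ∈ Y, nn Y p W y * δ y

noncomputable def l1 {X : Type*} (Y : Finset X) (f : X → ℝ) : ℝ := ∑ y ∈ Y, |f y|

/-- At most `Q` candidates in `Y`. -/
def Cand {X : Type*} (Y : Finset X) (Q : ℕ) (W : X → ℝ) : Prop :=
  (∀ x, W x ≤ 1) ∧ (Y.filter fun y => 1 / 2 < W y).card ≤ Q

/-! ### Features and the kernel -/

/-- Parameters: scale `τ`, growth exponent `σ`, number of levels `J`, period `m`, windows. -/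
structure Par where
  τ : ℕ
  σ : ℕ
  J : ℕ
  m : ℕ
  h0 : ℕ
  h : ℕ → ℕ

def Par.r (P : Par) (j : ℕ) : ℕ := 2 ^ j * P.τ
def Par.p (P : Par) (j : ℕ) : ℕ := 6 + P.σ * P.r j
def Par.Q (P : Par) (j : ℕ) : ℕ := 2 ^ (P.σ * P.r j)

/-- Standing hypotheses on the length and the parameters. -/
structure Good {G : Type*} [Group G] (ℓ : G → ℕ) (P : Par) : Prop where
  len : IsLen ℓ
  τ_pos : 0 < P.τ
  h0_pos : 0 < P.h0
  h0_lt : P.h0 < P.m
  h_pos : ∀ j, 0 < P.h j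
  ball : ∀ j ≤ P.J, ∃ B : Finset G, B.card ≤ P.Q j ∧ ∀ x, ℓ x ≤ P.r j → x ∈ B

variable {G : Type*} [Group G]

noncomputable def k0 (ℓ : G → ℕ) (τ : ℕ) (x y : G) : ℝ :=
  1 - min (ℓ (x⁻¹ * y) : ℝ) τ / τ

noncomputable def kb (ℓ : G → ℕ) (r : ℕ) (x y : G) : ℝ :=
  if ℓ (x⁻¹ * y) ≤ r then 1 else 0

/-- The scores of the labels at level `j` and time `a`. -/
noncomputable def Wt (S : (G → ℝ) → ℝ) (ℓ : G → ℕ) (P : Par) : ℕ → (ℕ → G) → ℕ → G → ℝ
  | 0, v, a, x => (P.h0 : ℝ)⁻¹ * ∑ u ∈ range P.h0, k0 ℓ P.τ x (v (a + u + 1))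
  | j + 1, v, a, x => (P.h j : ℝ)⁻¹ * ∑ u ∈ range (P.h j),
      S (fun y => kb ℓ (P.r j) x y * soft S (P.p j) (Wt S ℓ P j v (a + u + 1)) y)

/-- The features at level `j` and time `a`. -/
noncomputable def Ft (S : (G → ℝ) → ℝ) (ℓ : G → ℕ) (P : Par) (j : ℕ) (v : ℕ → G) (a : ℕ) :
    G → ℝ :=
  soft S (P.p j) (Wt S ℓ P j v a)

noncomputable def saw (h u : ℕ) : ℝ := (u : ℝ) / h - 1

noncomputable def term0 (ℓ : G → ℕ) (P : Par) (v v' : ℕ → G) (a : ℕ) : ℝ :=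
  ∑ u ∈ range P.h0, saw P.h0 u * k0 ℓ P.τ (v a) (v' (a + u))

/-- The bilinear form of level `j`. -/
noncomputable def BL (S : (G → ℝ) → ℝ) (ℓ : G → ℕ) (P : Par) (j : ℕ) (f : G → ℝ)
    (f' : ℕ → G → ℝ) : ℝ :=
  ∑ u ∈ range (P.h j), saw (P.h j) u *
    S (fun x => f x * S (fun y => kb ℓ (P.r j) x y * f' u y))

/-- First exit time of the powers of the conjugate of `g` from the ball of radius `M`. -/
noncomputable def jx (ℓ : G → ℕ) (M : ℕ) (g x : G) : ℕ :=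
  sInf {j : ℕ | M < ℓ ((x⁻¹ * g * x) ^ j)}

/-- The bilinear form of the last level. -/
noncomputable def BD (S : (G → ℝ) → ℝ) (ℓ : G → ℕ) (P : Par) (g : G) (f : G → ℝ)
    (f' : ℕ → G → ℝ) : ℝ :=
  -S (fun x => f x * ∑ u ∈ range (jx ℓ (P.r P.J) g x * P.m), f' u x)

noncomputable def num0 (ℓ : G → ℕ) (P : Par) (v v' : ℕ → G) : ℝ :=
  ∑ a ∈ range P.m, term0 ℓ P v v' a

noncomputable def numL (S : (G → ℝ) → ℝ) (ℓ : G → ℕ) (P : Par) (j : ℕ) (v v' : ℕ → G) : ℝ :=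
  ∑ a ∈ range P.m, BL S ℓ P j (Ft S ℓ P j v a) (fun u => Ft S ℓ P j v' (a + u))

noncomputable def numD (S : (G → ℝ) → ℝ) (ℓ : G → ℕ) (P : Par) (g : G) (v v' : ℕ → G) : ℝ :=
  ∑ a ∈ range P.m, BD S ℓ P g (Ft S ℓ P P.J v a) (fun u => Ft S ℓ P P.J v' (a + u))

/-- The numerator of the kernel. -/
noncomputable def num (S : (G → ℝ) → ℝ) (ℓ : G → ℕ) (P : Par) (g : G) (v v' : ℕ → G) : ℝ :=
  128 * num0 ℓ P v v' + ∑ j ∈ range P.J, 128 * numL S ℓ P j v v' +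
    2 * (P.Q P.J : ℝ) * numD S ℓ P g v v'

def hol (m : ℕ) (v : ℕ → G) : G := v m * (v 0)⁻¹

/-- The kernel. -/
noncomputable def bker (ℓ : G → ℕ) (P : Par) (v v' : ℕ → G) : ℝ :=
  num sumF ℓ P (hol P.m v) v v' /
    max (num sumF ℓ P (hol P.m v) v (Tsh v) - num sumF ℓ P (hol P.m v) v v) P.m

/-! ### Numerical parameters -/

noncomputable def Aj (τ σ j : ℕ) : ℝ := 16 * (6 + σ * (2 ^ j * τ))

noncomputable def zj (j : ℕ) : ℝ := 1 / ((j + 1) * 2 ^ (j + 1))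

noncomputable def gam (τ σ H0 : ℕ) (H : ℕ → ℕ) (ρ z : ℝ) (j : ℕ) : ℝ :=
  ρ * Aj τ σ 0 / (τ ^ 2 * H0) *
    ∏ i ∈ range j, (ρ * Aj τ σ (i + 1) * Aj τ σ i / (H i * z))

end Vale.Agent.P184
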