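import Vale.Agent.P184.ParamsB

/-!
# P184: choice of the parameters
-/

namespace Vale.Agent.P184

open Finset

theorem exists_params (x : ℝ) (hx : 0 < x) (σ : ℕ) :
    ∃ (τ J H0 : ℕ) (H : ℕ → ℕ), 0 < τ ∧ 0 < H0 ∧ (∀ j, 0 < H j) ∧
      (128 : ℝ) ^ 2 * (2 * H0) ≤ (τ : ℝ) ^ 2 * x ^ 4 ∧
      (∀ j < J, (128 : ℝ) ^ 2 * (H j * Aj τ σ j ^ 2 * gam τ σ H0 H 2 (zj j) j ^ 2 / zj j) ≤
        (x / 2 ^ (j + 1)) ^ 4) ∧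
      (2 * (2 : ℝ) ^ (σ * (2 ^ J * τ))) ^ 2 *
        (4 * ((2 : ℝ) ^ (σ * (2 ^ J * τ)) + 2) * Aj τ σ J ^ 2 *
          gam τ σ H0 H ((2 : ℝ) ^ (σ * (2 ^ J * τ)) + 2) (zj J) J ^ 2 / zj J ^ 2) ≤
        (x / 2 ^ (J + 1)) ^ 4 :=
  PB.exists_params x hx σ

end Vale.Agent.P184
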